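import Vale.Agent.P002C97.Defs

/-!
# P002: the two new clauses of the statement
-/

open Matrix

namespace Vale.Agent.P002C

open Vale.Agent.P002A

variable {r s : ℕ}

/-- The class of `C`, its classical closure, its Zariski closure and the fibre of the
characteristic polynomial are admissible for `C`; the last two are closed. -/
def AdmFour (C : SpecialLinearGroup (Fin r) ℂ) : Prop :=
  Adm C {A | IsConj C A} ∧ Adm C (closure {A | IsConj C A}) ∧ Adm C (zarCl C) ∧
    Adm C {A | A.1.charpoly = C.1.charpoly} ∧ IsClosed (zarCl C) ∧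
    IsClosed {A : SpecialLinearGroup (Fin r) ℂ | A.1.charpoly = C.1.charpoly}

variable {G ι : Type} [Group G] {R : Set (FreeGroup ι)} (θ : PresentedGroup R ≃* G)
  (γ : Fin s → G) (C : Fin s → SpecialLinearGroup (Fin r) ℂ) (L : IntermediateField ℚ ℂ)

/-- The `𝓞 L`-points are dense for the Zariski closures of the classes and for all admissible
boundary conditions `T j`; for closed `T j` the locus is the image of all representations,
semisimple or not. -/
def DenseAll : Prop :=
  DenseIn (intPts (OM r R) L) (locusIn θ γ fun j => zarCl (C j)) ∧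
  DenseIn (intPts (OM r R) L) (imageIn θ γ fun j => zarCl (C j)) ∧
  ∀ T : Fin s → Set (SpecialLinearGroup (Fin r) ℂ), (∀ j, Adm (C j) (T j)) →
    DenseIn (intPts (OM r R) L) (locusIn θ γ T) ∧
    DenseIn (intPts (ORep r R) L) (repIn θ γ T) ∧
    ((∀ j, IsClosed (T j)) → imageIn θ γ T = locusIn θ γ T)

end Vale.Agent.P002C
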